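import Crest.Agent.R165.P.Bound
import Crest.Agent.R165.P.Small
import Crest.Agent.R165.P.Rel
import Crest.Agent.R165.P.Cts

/-! # R165 block P: abstract polymer RG (owner helper58)
The public statements live in the sub-files (same names and types; `final_bound` got `[Nonempty X]`):
`Alg` (exA_add, exA_zero, BdAx.exA), `Xi` (xi_grp), `Exact` (next_lcl, next_in, next_Z, mnext_xi), `Bound` (next_bound),
`Tree` (grp_bound), `Small` (sum_small_le, bd_small_sum, final_bound), `Rel` (next_rel), `Cts` (next_pcts, PCts.continuous, shooting). -/
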